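import Vale.Agent.P140.Bd3.B21

/-!
# P140: a continuum of renormalized entropy solutions with the same, arbitrarily small, datum

The mass of the set `Theta = 1` at the small time `t0` depends continuously on the amplitude of the
seed. So it takes all values between its value without seed and its value with the critical
amplitude, and every intermediate value survives in the limit, where the seed disappears.
-/

set_option linter.all false

open MeasureTheory Set Filter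
open scoped ENNReal Topology NNReal

noncomputable section

namespace Vale.Agent.P140.NU

theorem h119_Theta_le (P : Par) (t0 m0 : ℝ) (p : T3 × V) : |Theta P t0 m0 p| ≤
    (univ ×ˢ Metric.closedBall (0 : V) P.Vg : Set (T3 × V)).indicator (fun _ => (1 : ℝ)) p := by
  unfold Theta
  split_ifs with h
  · rw [indicator_of_mem]
    · simp
    · exact ⟨mem_univ _, by simpa only [Metric.mem_closedBall, dist_zero_right] using h.1⟩
  · rw [abs_zero]
    exact indicator_nonneg (fun _ _ => zero_le_one) _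

/-- the observable is Lipschitz in the amplitude of the seed -/
theorem h119_obs_lip : EvP fun P => ∀ t0 m0 : ℝ, 0 < t0 → ∀ n N : ℕ, ∃ C : ℝ, 0 ≤ C ∧
    ∀ κ ∈ Icc (0 : ℝ) 1, ∀ κ' ∈ Icc (0 : ℝ) 1, ∀ F F',
    DL.IsBM N (dat P n κ) F → DL.IsBM N (dat P n κ') F' →
    |(∫ p : T3 × V, F t0 p.1 p.2 * Theta P t0 m0 p) -
      ∫ p : T3 × V, F' t0 p.1 p.2 * Theta P t0 m0 p| ≤ C * |κ - κ'| := by
  refine (EvP.basic.and dat_bdd).mono ?_
  rintro P ⟨⟨hc, hl2, -, -, -, -, -⟩, hdb⟩ t0 m0 ht0 n N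
  have hs : 0 < P.ss n := b4_ss_pos hc (by linarith only [hl2]) n
  obtain ⟨B0, hB0⟩ := hdb n
  have hB : 0 ≤ max B0 0 := le_max_right _ _
  obtain ⟨K, hK, H1, H2⟩ := b4_stable N (max B0 0) t0 hB
  set μ : ℝ := (volume : Measure (T3 × V)).real (univ ×ˢ Metric.closedBall (0 : V) P.Vg) with hμ
  have hμ0 : 0 ≤ μ := measureReal_nonneg
  have hd : ∀ κ ∈ Icc (0 : ℝ) 1, ∀ x v, dat P n κ x v ≤ max B0 0 := fun κ hκ x v =>
    (hB0 κ hκ x v).2.1.trans (le_max_left _ _)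
  have hsi : 0 ≤ (P.ss n)⁻¹ := (inv_pos.2 hs).le
  refine ⟨K * (P.ss n)⁻¹ * μ, by positivity, ?_⟩
  intro κ hκ κ' hκ' F F' hF hF'
  have ht : t0 ∈ Icc 0 t0 := ⟨ht0.le, le_rfl⟩
  have mT := measurable_Theta P t0 m0
  have mF : ∀ κ F, DL.IsBM N (dat P n κ) F → Measurable fun p : T3 × V => F t0 p.1 p.2 :=
    fun κ F hF => hF.meas.comp (measurable_const.prodMk measurable_id)
  obtain ⟨i1, -⟩ := b4_int mT (mF κ F hF) (h119_Theta_le P t0 m0)
    (fun p => H1 _ F hF (hd κ hκ) t0 ht p.1 p.2)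
  obtain ⟨i2, -⟩ := b4_int mT (mF κ' F' hF') (h119_Theta_le P t0 m0)
    (fun p => H1 _ F' hF' (hd κ' hκ') t0 ht p.1 p.2)
  obtain ⟨-, b3⟩ := b4_int mT ((mF κ F hF).sub (mF κ' F' hF')) (h119_Theta_le P t0 m0)
    (fun p => H2 _ _ F F' hF hF' (hd κ hκ) (hd κ' hκ') _ (by positivity)
      (fun x v => b4_dat_sub hs κ κ' x v) t0 ht p.1 p.2)
  have e : (∫ p : T3 × V, F t0 p.1 p.2 * Theta P t0 m0 p) -
      ∫ p : T3 × V, F' t0 p.1 p.2 * Theta P t0 m0 p =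
      ∫ p : T3 × V, Theta P t0 m0 p *
        ((fun p : T3 × V => F t0 p.1 p.2) - (fun p : T3 × V => F' t0 p.1 p.2)) p := by
    rw [show (∫ p : T3 × V, F t0 p.1 p.2 * Theta P t0 m0 p) =
        ∫ p : T3 × V, Theta P t0 m0 p * F t0 p.1 p.2 from
        integral_congr_ae (Eventually.of_forall fun p => mul_comm _ _),
      show (∫ p : T3 × V, F' t0 p.1 p.2 * Theta P t0 m0 p) =
        ∫ p : T3 × V, Theta P t0 m0 p * F' t0 p.1 p.2 from
        integral_congr_ae (Eventually.of_forall fun p => mul_comm _ _), ← integral_sub i1 i2]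
    refine integral_congr_ae (Eventually.of_forall fun p => ?_)
    simp only [Pi.sub_apply]
    ring
  rw [e]
  refine b3.trans (le_of_eq ?_)
  ring

/-- all intermediate values of the observable are attained by some amplitude of the seed -/
theorem h119_mid : EvP fun P => ∃ m0 ε : ℝ, 0 < m0 ∧ 0 < ε ∧ ∀ᶠ t0 in 𝓝[>] (0 : ℝ),
    ∀ᶠ n in atTop, ∀ᶠ N in atTop, ∀ s ∈ Icc (ε / 2 * t0) (ε * t0), ∃ κ ∈ Icc (0 : ℝ) 1,
      ∀ F, DL.IsBM N (dat P n κ) F → ∫ p : T3 × V, F t0 p.1 p.2 * Theta P t0 m0 p = s := by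
  refine (ignition.and (h119_obs_lip.and dat_bdd)).mono ?_
  rintro P ⟨⟨m0, ε, hm0, hε, hig⟩, hlip, hdb⟩
  refine ⟨m0, ε, hm0, hε, ?_⟩
  filter_upwards [hig, self_mem_nhdsWithin] with t0 hig ht0
  have ht0 : 0 < t0 := ht0
  filter_upwards [hig] with n hig
  filter_upwards [hig] with N hig
  obtain ⟨⟨κ1, hκ1, h1⟩, h0⟩ := hig
  intro s hs
  have hex : ∀ κ : Icc (0 : ℝ) 1, ∃ F, DL.IsBM N (dat P n κ) F := by
    intro κ
    obtain ⟨C, hC⟩ := hdb n
    exact DL.exists_isBM N (dat_meas P n κ) (fun x v => (hC _ κ.2 x v).1)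
      (fun x v _ => (hC _ κ.2 x v).2.1)
  choose F hF using hex
  obtain ⟨C, hC, hL⟩ := hlip t0 m0 ht0 n N
  let m : ℝ → ℝ := fun κ =>
    if hκ : κ ∈ Icc (0 : ℝ) 1 then ∫ p : T3 × V, F ⟨κ, hκ⟩ t0 p.1 p.2 * Theta P t0 m0 p else 0
  have hm : ∀ κ (hκ : κ ∈ Icc (0 : ℝ) 1), m κ =
      ∫ p : T3 × V, F ⟨κ, hκ⟩ t0 p.1 p.2 * Theta P t0 m0 p := fun κ hκ => by
    simp only [m, dif_pos hκ]
  have hcont : ContinuousOn m (Icc 0 1) := by
    rw [Metric.continuousOn_iff]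
    intro κ hκ δ hδ
    refine ⟨δ / (C + 1), by positivity, fun κ' hκ' hd => ?_⟩
    rw [Real.dist_eq] at hd ⊢
    rw [hm κ' hκ', hm κ hκ]
    refine (hL κ' hκ' κ hκ _ _ (hF ⟨κ', hκ'⟩) (hF ⟨κ, hκ⟩)).trans_lt ?_
    have h5 : |κ' - κ| * (C + 1) < δ := (lt_div_iff₀ (by positivity)).mp hd
    nlinarith only [abs_nonneg (κ' - κ), h5]
  have hz : (0 : ℝ) ∈ Icc (0 : ℝ) 1 := ⟨le_rfl, zero_le_one⟩
  have hm0' : m 0 ≤ s := by
    rw [hm 0 hz]
    exact (h0 _ (hF ⟨0, hz⟩)).trans hs.1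
  have hm1' : s ≤ m κ1 := by
    rw [hm κ1 hκ1]
    exact hs.2.trans (h1 _ (hF ⟨κ1, hκ1⟩))
  obtain ⟨κ, hκ, hκs⟩ := intermediate_value_Icc hκ1.1
    (hcont.mono (Icc_subset_Icc le_rfl hκ1.2)) ⟨hm0', hm1'⟩
  have hκ' : κ ∈ Icc (0 : ℝ) 1 := ⟨hκ.1, hκ.2.trans hκ1.2⟩
  refine ⟨κ, hκ', fun F' hF' => ?_⟩
  rw [← hκs, hm κ hκ']
  congr 1
  funext p
  rw [hF'.unique (hF ⟨κ, hκ'⟩) ht0.le p.1 p.2]

/-- the singular datum has, at every small time, solutions with all intermediate values of the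
observable -/
theorem h119_family : EvP fun P => ∃ m0 ε : ℝ, 0 < m0 ∧ 0 < ε ∧ ∀ᶠ t0 in 𝓝[>] (0 : ℝ),
    ∀ s ∈ Icc (ε / 2 * t0) (ε * t0), ∃ L : ℝ → T3 → V → ℝ, IsRenormEntropySol (coldInf P) L ∧
      ∫ p : T3 × V, L t0 p.1 p.2 * Theta P t0 m0 p = s := by
  refine (h119_mid.and (coldInf_datum.and (dat_tendsto.and (dat_entropy.and
      (dat_bdd.and dat_datum))))).mono ?_
  rintro P ⟨⟨m0, ε, hm0, hε, hig⟩, hd, ht, he, hb, hdn⟩
  refine ⟨m0, ε, hm0, hε, ?_⟩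
  filter_upwards [hig, self_mem_nhdsWithin] with t0 hig ht0
  have ht0 : 0 < t0 := ht0
  intro s hs
  obtain ⟨a, b, ha, hb', hab⟩ := exists_seq hig
  have hκ : ∀ k, ∃ κ ∈ Icc (0 : ℝ) 1, ∀ F, DL.IsBM (b k) (dat P (a k) κ) F →
      ∫ p : T3 × V, F t0 p.1 p.2 * Theta P t0 m0 p = s := fun k => hab k s hs
  choose κ hκ hκ2 using hκ
  have hex : ∀ k, ∃ F, DL.IsBM (b k) (dat P (a k) (κ k)) F := by
    intro k
    obtain ⟨C, hC⟩ := hb (a k)
    exact DL.exists_isBM (b k) (dat_meas P (a k) (κ k)) (fun x v => (hC _ (hκ k) x v).1)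
      (fun x v _ => (hC _ (hκ k) x v).2.1)
  choose F hF using hex
  have hconv : Tendsto (fun k => wDist psi2 (dat P (a k) (κ k)) (coldInf P)) atTop (𝓝 0) := by
    rw [ENNReal.tendsto_nhds_zero]
    intro δ hδ
    have h1 := ha.eventually (unif_of_seq (I := fun n κ => ∫⁻ p : T3 × V, ENNReal.ofReal
      ((1 + ‖p.2‖ ^ 2) * |dat P n κ p.1 p.2 - coldInf P p.1 p.2|)) ht hδ)
    filter_upwards [h1] with k hk
    refine le_trans (le_of_eq ?_) (hk (κ k) (hκ k)).le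
    unfold wDist psi2
    congr 1
    funext p
    rw [← ENNReal.ofReal_mul (by positivity)]
  have hent : ∀ δ : ℝ≥0∞, 0 < δ → ∀ᶠ k in atTop,
      relEntropy (dat P (a k) (κ k)) ≤ relEntropy (coldInf P) + δ := by
    intro δ hδ
    have hfin : relEntropy (coldInf P) ≠ ⊤ := (DL.relEntropy_datum hd).ne
    have h1 := ha.eventually (unif_of_seq (I := fun n κ => relEntropy (dat P n κ)) he
      (ENNReal.lt_add_right hfin hδ.ne'))
    filter_upwards [h1] with k hk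
    exact (hk (κ k) (hκ k)).le
  obtain ⟨φ, hφ, L, hL, hlim⟩ := DL.stability hb' hd
    (fun k => (hF k).isApprox (hdn (a k) (κ k) (hκ k))) hconv hent
  have hl := hlim t0 ht0.le _ (measurable_Theta P t0 m0) ⟨1, fun p => by
    unfold Theta
    split_ifs <;> simp⟩
  refine ⟨L, hL, tendsto_nhds_unique hl ?_⟩
  have hc : (fun k => ∫ p : T3 × V, F (φ k) t0 p.1 p.2 * Theta P t0 m0 p) = fun _ => s :=
    funext fun k => hκ2 (φ k) _ (hF (φ k))
  rw [hc]
  exact tendsto_const_nhds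

end Vale.Agent.P140.NU
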