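import Vale.Agent.P140.Stt

/-!
# P140: a continuum of renormalized entropy solutions with a small datum (definitions)
-/

open MeasureTheory Set
open Vale.Agent.P140.Stt

namespace Vale.Agent.P140.H119

/-- the velocities -/
abbrev R3 : Type := EuclideanSpace ℝ (Fin 3)

/-- the positions -/
abbrev T3 : Type := UnitAddTorus (Fin 3)

/-- the canonical projection `ℝ³ → ℝ³ / ℤ³` -/
def proj (x : R3) : T3 := fun i => (x i : UnitAddCircle)

/-- some datum has two different renormalized entropy solutions -/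
def Nonuniqueness : Prop :=
  ∃ (F0 : T3 × R3 → ℝ) (F G : ℝ → T3 × R3 → ℝ), IsSol proj F0 F ∧ IsSol proj F0 G ∧
    (∃ t : ℝ, 0 ≤ t ∧ ¬ F t =ᵐ[volume] G t) ∧
    ¬ ∀ᵐ q : ℝ × T3 × R3, 0 ≤ q.1 → F q.1 q.2 = G q.1 q.2

/-- distance to the closed straight line `x₀ = x₁ = 0` of the torus -/
noncomputable def lineDist (x : T3) : ℝ := √(‖x 0‖ ^ 2 + ‖x 1‖ ^ 2)

/-- `F0` has mass, energy and entropy less than `δ`, lives in the tube of radius `δ` around the
line and in the ball of velocities of radius `3`, is invariant along the line, and its density at a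
point `x` is at most `C` divided by the distance of `x` to the line -/
structure SmallDatum (C δ : ℝ) (F0 : T3 × R3 → ℝ) : Prop where
  size : ∫⁻ p, ENNReal.ofReal (F0 p * (1 + ‖p.2‖ ^ 2 + |Real.log (F0 p)|)) < ENNReal.ofReal δ
  tube : ∀ p, δ < lineDist p.1 → F0 p = 0
  velocity : ∀ p, 3 < ‖p.2‖ → F0 p = 0
  invariant : ∀ x y v, x 0 = y 0 → x 1 = y 1 → F0 (x, v) = F0 (y, v)
  density : ∀ x, ∫⁻ v, ENNReal.ofReal (F0 (x, v)) ≤ ENNReal.ofReal (C / lineDist x)

/-- At the time `t` the solutions with datum `F0` form at least a continuum: for a set `A` of the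
phase space and an interval `[a, b]`, every `m` in `[a, b]` is the mass of `A` at the time `t` for
some solution `F m` with datum `F0`; solutions with different `m` are different. -/
def Continuum (F0 : T3 × R3 → ℝ) (t : ℝ) : Prop :=
  ∃ (A : Set (T3 × R3)) (a b : ℝ) (F : ℝ → ℝ → T3 × R3 → ℝ), MeasurableSet A ∧ 0 < a ∧ a < b ∧
    ∀ m ∈ Icc a b, IsSol proj F0 (F m) ∧ ∫ p in A, F m t p = m ∧
      ∀ m' ∈ Icc a b, m' ≠ m → (¬ F m t =ᵐ[volume] F m' t) ∧
        ¬ ∀ᵐ q : ℝ × T3 × R3, 0 ≤ q.1 → F m q.1 q.2 = F m' q.1 q.2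

/-- arbitrarily small data from which a continuum of solutions branches at the time `0` -/
def SmallContinuum : Prop :=
  ∃ C : ℝ, ∀ δ : ℝ, 0 < δ → ∃ (F0 : T3 × R3 → ℝ) (τ : ℝ), 0 < τ ∧ SmallDatum C δ F0 ∧
    ∀ t, 0 < t → t < τ → Continuum F0 t

end Vale.Agent.P140.H119
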