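import Vale.Agent.P140.H119.Small
import Vale.Agent.P140.H119.Defs

/-!
# P140: a continuum of renormalized entropy solutions with a small datum (proof)
-/

set_option linter.all false

open MeasureTheory Set Filter
open scoped ENNReal Topology NNReal

noncomputable section

namespace Vale.Agent.P140.NU

theorem h119_old : H119.Nonuniqueness := disproof fun _ _ => rfl

theorem h119_sol {F0 : T3 → V → ℝ} {F : ℝ → T3 → V → ℝ} (h : IsRenormEntropySol F0 F) :
    Stt.IsSol H119.proj (fun p => F0 p.1 p.2) (fun t p => F t p.1 p.2) :=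
  stt_of_sol (fun _ _ => rfl) h

/-- the mass of the set `Theta = 1` -/
theorem h119_mass (P : Par) (t0 m0 : ℝ) (f : T3 × V → ℝ) :
    ∫ p in {p | Theta P t0 m0 p = 1}, f p = ∫ p, f p * Theta P t0 m0 p := by
  have hA : MeasurableSet {p | Theta P t0 m0 p = 1} :=
    measurable_Theta P t0 m0 (measurableSet_singleton 1)
  rw [← integral_indicator hA]
  congr 1
  funext p
  by_cases h : p ∈ {p | Theta P t0 m0 p = 1}
  · have h' : Theta P t0 m0 p = 1 := h
    rw [indicator_of_mem h, h', mul_one]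
  · rw [indicator_of_notMem h]
    have h' : Theta P t0 m0 p = 0 := by
      have h1 : Theta P t0 m0 p ≠ 1 := h
      unfold Theta at h1 ⊢
      split_ifs with h2
      · rw [if_pos h2] at h1
        exact absurd rfl h1
      · rfl
    rw [h', mul_zero]

theorem h119_cont {P : Par} {t0 m0 ε : ℝ} (hε : 0 < ε) (ht0 : 0 < t0)
    (h : ∀ s ∈ Icc (ε / 2 * t0) (ε * t0), ∃ L : ℝ → T3 → V → ℝ, IsRenormEntropySol (coldInf P) L ∧
      ∫ p : T3 × V, L t0 p.1 p.2 * Theta P t0 m0 p = s) :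
    H119.Continuum (fun p => coldInf P p.1 p.2) t0 := by
  choose! L hL hm using h
  refine ⟨{p | Theta P t0 m0 p = 1}, ε / 2 * t0, ε * t0, fun m t p => L m t p.1 p.2,
    measurable_Theta P t0 m0 (measurableSet_singleton 1), by positivity, by nlinarith, ?_⟩
  intro m hmm
  have hmass : ∀ m ∈ Icc (ε / 2 * t0) (ε * t0),
      ∫ p in {p | Theta P t0 m0 p = 1}, L m t0 p.1 p.2 = m := fun m hmm => by
    rw [h119_mass P t0 m0 fun p => L m t0 p.1 p.2]
    exact hm m hmm
  refine ⟨h119_sol (hL m hmm), hmass m hmm, fun m' hmm' hne => ?_⟩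
  have key : ¬ (fun p : T3 × V => L m t0 p.1 p.2) =ᵐ[volume] fun p => L m' t0 p.1 p.2 := by
    intro he
    apply hne
    rw [← hmass m hmm, ← hmass m' hmm']
    exact (integral_congr_ae (ae_restrict_of_ae he)).symm
  exact ⟨key, fun he => key (eq_of_ae_st (hL m hmm) (hL m' hmm') he ht0.le)⟩

theorem h119_main : H119.SmallContinuum := by
  obtain ⟨P, hP⟩ := h119_params (h119_family.and (Med.good_ev.and box_mass))
  refine ⟨2 * P.c, fun δ hδ => ?_⟩
  have h1 := h119_small (P := P) (fun j hj => (hP j hj).2.1) (ENNReal.ofReal_pos.2 hδ)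
  have hG := (hP P.j0 le_rfl).2.1
  have h2 : ∀ᶠ j : ℕ in atTop, P.lam ^ j < δ :=
    (tendsto_pow_atTop_nhds_zero_of_lt_one hG.lpos.le hG.l1).eventually (eventually_lt_nhds hδ)
  obtain ⟨j, hj1, hj2, hj⟩ := (h1.and (h2.and (eventually_ge_atTop P.j0))).exists
  obtain ⟨⟨m0, ε, hm0, hε, hev⟩, hGj, hb⟩ := hP j hj
  obtain ⟨τ, hτ, hsub⟩ := mem_nhdsGT_iff_exists_Ioo_subset.1 hev
  refine ⟨fun p => coldInf (h119_P P j) p.1 p.2, τ, hτ, ⟨hj1, ?_, ?_, ?_, ?_⟩, ?_⟩
  · intro p hp
    exact h119_tube hGj (lt_trans hj2 hp) p.2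
  · intro p hp
    exact h119_supp hGj p.1 hp
  · intro x y v h0 h1
    exact h119_inv _ h0 h1 v
  · intro x
    exact h119_dens hGj hb x
  · intro t ht htτ
    exact h119_cont hε ht (hsub ⟨ht, htτ⟩)

end Vale.Agent.P140.NU
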