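import Vale.Agent.P140.H119.Cont

/-!
# P140: properties of the singular data, arbitrarily small data, choice of the parameters
-/

set_option linter.all false

open MeasureTheory Set Filter
open scoped ENNReal Topology NNReal

noncomputable section

namespace Vale.Agent.P140.NU

/-- the parameters `P` with the first cell `j` -/
def h119_P (P : Par) (j : ℕ) : Par := ⟨P.c, P.lam, P.kdel, P.K, j⟩

theorem h119_params {φ : Par → Prop} (h : EvP φ) :
    ∃ P : Par, ∀ j, P.j0 ≤ j → φ (h119_P P j) := by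
  obtain ⟨c, h1⟩ := Filter.Eventually.exists (show ∀ᶠ c in atTop, _ from h)
  have hl : ∀ᶠ lam in 𝓝[<] (1 : ℝ), lam ∈ Ioo (9 / 10 : ℝ) 1 := Ioo_mem_nhdsLT (by norm_num)
  obtain ⟨lam, h2, hlam⟩ := (h1.and hl).exists
  obtain ⟨K, h3⟩ := h2.exists
  obtain ⟨kdel, h4⟩ := h3.exists
  obtain ⟨j0, hj0⟩ := exists_pow_lt_of_lt_one (show (0 : ℝ) < 1 / 64 by norm_num) hlam.2
  refine ⟨⟨c, lam, kdel, K, j0⟩, fun j hj => h4 j ?_⟩
  exact (pow_le_pow_of_le_one (by linarith [hlam.1]) hlam.2.le hj).trans hj0.le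

/-- the size of the datum tends to zero with the radius of the tube -/
theorem h119_small {P : Par} (h : ∀ j, P.j0 ≤ j → Med.Good (h119_P P j)) {δ : ℝ≥0∞}
    (hδ : 0 < δ) : ∀ᶠ j in atTop, ∫⁻ p : T3 × V, ENNReal.ofReal
      (coldInf (h119_P P j) p.1 p.2 *
        (1 + ‖p.2‖ ^ 2 + |Real.log (coldInf (h119_P P j) p.1 p.2)|)) < δ := by
  have hP : Med.Good P := h P.j0 le_rfl
  have hm : Measurable fun p : T3 × V => ENNReal.ofReal
      (coldInf P p.1 p.2 * (1 + ‖p.2‖ ^ 2 + |Real.log (coldInf P p.1 p.2)|)) := by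
    have := Med.measurable_coldInf' (P := P)
    have h2 : Measurable fun p : T3 × V => |Real.log (coldInf P p.1 p.2)| :=
      (Real.measurable_log.comp this).abs
    exact (this.mul (((measurable_snd.norm.pow_const 2).const_add 1).add h2)).ennreal_ofReal
  have ht := Med.tb_tendsto hP hm (Med.coldInf_finite hP).ne
  obtain ⟨N, hN⟩ := eventually_atTop.1 (ht.eventually (eventually_lt_nhds hδ))
  filter_upwards [eventually_ge_atTop (max (N + 1) (P.j0 + 1))] with j hj
  obtain ⟨n, rfl⟩ : ∃ n, j = n + 1 := ⟨j - 1, by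
    have := (le_max_left (N + 1) (P.j0 + 1)).trans hj
    omega⟩
  have hn := hN n (by
    have := (le_max_left (N + 1) (P.j0 + 1)).trans hj
    omega)
  have hnj : P.j0 ≤ n := by
    have := (le_max_right (N + 1) (P.j0 + 1)).trans hj
    omega
  refine lt_of_le_of_lt (lintegral_mono fun p => ?_) hn
  have hG := h (n + 1) (hnj.trans (Nat.le_succ n))
  rcases Med.coldInf_cases hG p.1 p.2 with h0 | ⟨i, hi, hc, hb, h5⟩
  · rw [h0]; simp
  · have hi' : n + 1 ≤ i := hi
    have hc' : rr p.1 ∈ P.cell gg i := hc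
    have hb' : p.2 ∈ Box P i p.1 := hb
    have e : coldInf (h119_P P (n + 1)) p.1 p.2 = coldInf P p.1 p.2 := by
      rw [h5, Med.coldInf_of_cell hP ((hnj.trans (Nat.le_succ n)).trans hi') hc',
        Med.coldj_of_mem hc' hb']
      rfl
    have hmem : p ∈ Med.Tb P n := by
      show rr p.1 ≤ 2 * P.ss n
      have e1 := hP.cell_le gg_pos.le hc'
      have e2 : P.lam ^ i ≤ P.lam ^ (n + 1) := pow_le_pow_of_le_one hP.lpos.le hP.l1.le hi'
      have e3 := Med.lam_le_ss hP n
      have e4 := Med.ss_pos hP n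
      linarith
    rw [indicator_of_mem hmem, e]

/-- the datum is supported in the tube of radius `lam ^ j0` -/
theorem h119_tube {P : Par} (h : Med.Good P) {x : T3} (hx : P.lam ^ P.j0 < rr x) (v : V) :
    coldInf P x v = 0 := by
  rcases Med.coldInf_cases h x v with h0 | ⟨j, hj, hc, -, -⟩
  · exact h0
  · exfalso
    have e1 := h.cell_le gg_pos.le hc
    have e2 : P.lam ^ j ≤ P.lam ^ P.j0 := pow_le_pow_of_le_one h.lpos.le h.l1.le hj
    linarith

/-- the datum has bounded velocities -/
theorem h119_supp {P : Par} (h : Med.Good P) (x : T3) {v : V} (hv : 3 < ‖v‖) :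
    coldInf P x v = 0 := by
  rcases Med.coldInf_cases h x v with h0 | ⟨j, -, -, hb, -⟩
  · exact h0
  · exfalso
    have := Med.norm_sq_le_of_Box h hb
    nlinarith

/-- the datum does not depend on the third coordinate -/
theorem h119_inv (P : Par) {x y : T3} (h0 : x 0 = y 0) (h1 : x 1 = y 1) (v : V) :
    coldInf P x v = coldInf P y v := by
  have e1 : rr x = rr y := by unfold rr; rw [h0, h1]
  have e2 : rep x 0 = rep y 0 := by unfold rep; rw [h0]
  have e3 : rep x 1 = rep y 1 := by unfold rep; rw [h1]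
  have e4 : ∀ v, dotE x v = dotE y v := fun v => by unfold dotE; rw [e1, e2, e3]
  have e5 : ∀ v, crossE x v = crossE y v := fun v => by unfold crossE; rw [e2, e3]
  have e6 : ∀ j, Box P j x = Box P j y := fun j => by
    unfold Box
    ext w
    simp only [mem_setOf_eq, e4, e5]
  have e7 : ∀ j, coldj P j x v = coldj P j y v := fun j => by
    unfold coldj
    rw [e1, e6 j]
  unfold coldInf
  simp only [e7]

/-- the macroscopic density of the datum -/
theorem h119_dens {P : Par} (h : Med.Good P)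
    (hbox : ∀ j, P.j0 ≤ j → ∀ x, P.lam ^ (j + 1) ≤ rr x →
      ENNReal.ofReal (P.amp j) * volume (Box P j x) ≤ ENNReal.ofReal (2 * P.c / rr x)) (x : T3) :
    ∫⁻ v : V, ENNReal.ofReal (coldInf P x v) ≤ ENNReal.ofReal (2 * P.c / rr x) := by
  by_cases hx : ∃ j, P.j0 ≤ j ∧ rr x ∈ P.cell gg j
  · obtain ⟨j, hj, hc⟩ := hx
    have hx0 := h.cell_pos hc
    calc ∫⁻ v, ENNReal.ofReal (coldInf P x v)
        ≤ ∫⁻ v, (Box P j x).indicator (fun _ => ENNReal.ofReal (P.amp j)) v := by
          apply lintegral_mono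
          intro v
          beta_reduce
          rw [Med.coldInf_of_cell h hj hc]
          by_cases hv : v ∈ Box P j x
          · rw [indicator_of_mem hv, Med.coldj_of_mem hc hv]
          · rw [indicator_of_notMem hv]
            unfold coldj
            rw [if_neg (fun hh => hv hh.2)]
            simp
      _ = ENNReal.ofReal (P.amp j) * volume (Box P j x) := by
          rw [lintegral_indicator (Med.measurableSet_Box j hx0), setLIntegral_const]
      _ ≤ _ := hbox j hj x (h.le_cell gg_pos.le hc)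
  · have h0 : ∀ v, coldInf P x v = 0 := fun v =>
      Med.coldInf_eq_zero_of (fun j hj hc => hx ⟨j, hj, hc⟩) v
    simp [h0]

end Vale.Agent.P140.NU
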